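import Vale.Agent.P144U.Defs
import Vale.Agent.P144E.Ge2.Conn

/-!
The outside of a dug reentrant tip is connected at the scales where the walls are straight.
-/

namespace Vale.Agent.P144Z

open GeoA Ge2

namespace COr

/-- The lattice in the plane. -/
def em (v : ℤ × ℤ) : ℝ × ℝ := (v.1, v.2)

theorem norm_em (x y : ℤ × ℤ) : ‖em x - em y‖ = zd x y := by
  simp [em, zd, Prod.norm_def, Nat.cast_natAbs]

theorem norm_em₀ (x : ℤ × ℤ) : ‖em x‖ = zd x 0 := by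
  simp [em, zd, Prod.norm_def, Nat.cast_natAbs]

theorem exists_round (p : ℝ × ℝ) : ∃ x, ‖em x - p‖ ≤ 1 :=
  ⟨(⌊p.1⌋, ⌊p.2⌋), norm_prod_le_iff.2 ⟨abs_le.2
    ⟨by simpa [em] using (Int.lt_floor_add_one p.1).le, by
      simpa [em] using (Int.floor_le p.1).trans (le_add_of_nonneg_left zero_le_one)⟩, abs_le.2
    ⟨by simpa [em] using (Int.lt_floor_add_one p.2).le, by
      simpa [em] using (Int.floor_le p.2).trans (le_add_of_nonneg_left zero_le_one)⟩⟩⟩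

theorem norm_cvx {θ : ℝ} (h0 : 0 ≤ θ) (h1 : θ ≤ 1) (p q z : ℝ × ℝ) :
    ‖p + θ • (q - p) - z‖ ≤ (1 - θ) * ‖p - z‖ + θ * ‖q - z‖ := by
  have e : p + θ • (q - p) - z = (1 - θ) • (p - z) + θ • (q - z) := by module
  rw [e]
  refine (norm_add_le _ _).trans_eq ?_
  rw [norm_smul, norm_smul, Real.norm_of_nonneg h0, Real.norm_of_nonneg (sub_nonneg.2 h1)]

theorem zd_iff {x a : ℤ × ℤ} {D : ℕ} :
    zd x a ≤ D ↔ (a.1 - D ≤ x.1 ∧ x.1 ≤ a.1 + D) ∧ a.2 - D ≤ x.2 ∧ x.2 ≤ a.2 + D := by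
  unfold zd
  omega

/-- Rectangles are connected. -/
theorem rch_rect {a c : ℤ × ℤ} {D t : ℕ} {u w : ℤ × ℤ} (hu : zd u a ≤ D ∧ zd u c ≤ t)
    (hw : zd w a ≤ D ∧ zd w c ≤ t) : Rch (fun x => zd x a ≤ D ∧ zd x c ≤ t) u w := by
  obtain ⟨n, hn⟩ : ∃ n, (u.1 - w.1).natAbs + (u.2 - w.2).natAbs ≤ n := ⟨_, le_rfl⟩
  induction n generalizing u with
  | zero =>
    have : u = w := Prod.ext (by omega) (by omega)
    exact this ▸ Relation.ReflTransGen.refl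
  | succ n ih =>
    have step : ∀ e : ℤ × ℤ, (e = (1, 0) ∨ e = (0, 1) ∨ e = (-1, 0) ∨ e = (0, -1)) →
        (zd (u + e) a ≤ D ∧ zd (u + e) c ≤ t) →
        ((u + e).1 - w.1).natAbs + ((u + e).2 - w.2).natAbs ≤ n →
        Rch (fun x => zd x a ≤ D ∧ zd x c ≤ t) u w := fun e he h1 h2 =>
      Relation.ReflTransGen.head ⟨hu, h1, by rcases he with rfl | rfl | rfl | rfl <;> simp⟩
        (ih h1 h2)
    rw [zd_iff, zd_iff] at hu hw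
    rcases lt_trichotomy u.1 w.1 with h1 | h1 | h1
    · refine step (1, 0) (by simp) ?_ ?_ <;> simp only [zd_iff, Prod.fst_add, Prod.snd_add] <;>
        omega
    · rcases lt_trichotomy u.2 w.2 with h2 | h2 | h2
      · refine step (0, 1) (by simp) ?_ ?_ <;> simp only [zd_iff, Prod.fst_add, Prod.snd_add] <;>
          omega
      · have : u = w := Prod.ext h1 h2
        exact this ▸ Relation.ReflTransGen.refl
      · refine step (0, -1) (by simp) ?_ ?_ <;> simp only [zd_iff, Prod.fst_add, Prod.snd_add] <;>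
          omega
    · refine step (-1, 0) (by simp) ?_ ?_ <;> simp only [zd_iff, Prod.fst_add, Prod.snd_add] <;>
        omega

theorem near_ray {a b : ℝ} {v e x : ℤ × ℤ} {t D : ℕ} (h : zd x (ray v e a b t) ≤ D) :
    ‖em x - ((v.1 : ℝ) - 12 * e.1 - t * a, (v.2 : ℝ) - 12 * e.2 - t * b)‖ ≤ D + 1 := by
  have e1 := near_real ((le_max_left _ _).trans h)
  have e2 := near_real ((le_max_right _ _).trans h)
  push_cast at e1 e2
  rw [← abs_neg] at e1 e2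
  exact norm_prod_le_iff.2 ⟨(congrArg abs (by simp only [em, Prod.fst_sub]; ring)).trans_le e1,
    (congrArg abs (by simp only [em, Prod.snd_sub]; ring)).trans_le e2⟩

/-- The staircase along a segment. -/
theorem seg {G : ℤ × ℤ → Prop} {u w : ℤ × ℤ}
    (h : ∀ x, ∀ θ : ℝ, 0 ≤ θ → θ ≤ 1 → ‖em x - (em u + θ • (em w - em u))‖ ≤ 2 → G x) :
    Rch G u w := by
  have hT : (0 : ℝ) < (zd u w + 1 : ℕ) := by positivity
  have k := norm_prod_le_iff.1 (norm_em u w).le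
  have key : ∀ y : ℝ, ‖y‖ ≤ zd u w → |y / (zd u w + 1 : ℕ)| ≤ 1 := fun y hy => by
    rw [abs_div, abs_of_pos hT, div_le_one hT]
    exact hy.trans (by push_cast; linarith)
  have h1 := rch_along (G := G) (key _ k.1) (key _ k.2) (v := u) (e := 0)
    (Nat.zero_le (zd u w + 1)) fun t x _ ht hx => by
      refine h x (t / (zd u w + 1 : ℕ)) (by positivity) ((div_le_one hT).2 (by exact_mod_cast ht))
        ((congrArg (fun y => ‖em x - y‖) ?_).trans_le ((near_ray hx).trans (by norm_num)))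
      ext <;> simp [em] <;> ring
  convert h1 using 1 <;> ext <;> simp only [ray, mul_div_cancel₀ _ hT.ne'] <;>
    simp [em, ← Int.cast_sub]

/-- The height with the error term. -/
noncomputable def F (ν : ℂ) (κ : ℝ) (p : ℝ × ℝ) : ℝ := p.1 * ν.re + p.2 * ν.im + 2 * κ * ‖p‖

variable {S S₁ S₂ : Set (ℤ × ℤ)} {ν ν₁ ν₂ : ℂ} {α κ : ℝ}

theorem F_em (x : ℤ × ℤ) : F ν κ (em x) = ht ν x + 2 * κ * zd x 0 := by
  rw [F, norm_em₀]
  rfl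

theorem F_lip (hν : ‖ν‖ = 1) (h0 : 0 ≤ κ) (h1 : κ ≤ 1 / 8) {p q : ℝ × ℝ} {D : ℝ}
    (h : ‖p - q‖ ≤ D) : F ν κ p ≤ F ν κ q + 3 * D := by
  have k := norm_prod_le_iff.1 h
  have k1 := (abs_le.1 (abs_mul_le k.1 (abs_re hν))).2
  have k2 := (abs_le.1 (abs_mul_le k.2 (abs_im hν))).2
  have k3 := mul_le_mul_of_nonneg_left ((norm_sub_norm_le p q).trans h) h0
  have k4 := mul_le_mul_of_nonneg_right h1 ((norm_nonneg _).trans h)
  simp only [F, Prod.fst_sub, Prod.snd_sub] at k1 k2 ⊢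
  linarith [(norm_nonneg _).trans h]

theorem F_cvx (h0 : 0 ≤ κ) {θ C : ℝ} (t0 : 0 ≤ θ) (t1 : θ ≤ 1) {p q : ℝ × ℝ} (hp : F ν κ p ≤ C)
    (hq : F ν κ q ≤ C) : F ν κ (p + θ • (q - p)) ≤ C := by
  have k := mul_le_mul_of_nonneg_left (norm_cvx t0 t1 p q 0) h0
  have k1 := mul_le_mul_of_nonneg_left hp (sub_nonneg.2 t1)
  have k2 := mul_le_mul_of_nonneg_left hq t0
  simp only [F, sub_zero, Prod.fst_add, Prod.snd_add, Prod.smul_fst, Prod.smul_snd, Prod.fst_sub,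
    Prod.snd_sub, smul_eq_mul] at k k1 k2 ⊢
  linarith

theorem out_F (h : Epi S ν κ) (hν : ‖ν‖ = 1) (h0 : 0 ≤ κ) (h1 : κ ≤ 1 / 8)
    (w : ∃ f, f ∉ S ∧ zd f 0 ≤ 2) {x : ℤ × ℤ} (hx : F ν κ (em x) ≤ -5) : x ∉ S := by
  rw [F_em] at hx
  simpa using out h hν h0 (by linarith) w (y := x) (v := 0) (ρ := 0) le_rfl (by simp [zd])
    (by push_cast; linarith)

theorem ht_lt (h : Epi S ν κ) (hν : ‖ν‖ = 1) (h0 : 0 ≤ κ) (h1 : κ ≤ 1 / 8)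
    (w : ∃ f ∈ S, zd f 0 ≤ 2) {x : ℤ × ℤ} (hx : x ∉ S) : ht ν x < 2 * κ * zd x 0 + 5 := by
  by_contra! k
  exact hx (by
    simpa using inn h hν h0 (by linarith) w (y := x) (v := 0) (ρ := 0) le_rfl (by simp [zd])
      (by push_cast; linarith))

/-- The move away from the nearer wall. -/
theorem push (h : TipS S₁ S₂ ν₁ ν₂ α κ) (h0 : 0 ≤ κ) (h1 : κ ≤ 1 / 8) {f : ℤ × ℤ} (hf : f ∉ S₁)
    {T : ℕ} (hT : 6 * κ * zd f 0 + 40 ≤ T) (h2 : F ν₂ κ (em f) + 3 * (T + 13) ≤ -20) :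
    ∃ g, zd g f ≤ T + 13 ∧ F ν₁ κ (em g) ≤ -20 ∧ F ν₂ κ (em g) ≤ -20 ∧
      Rch (fun x => (x ∉ S₁ ∧ x ∉ S₂) ∧ zd x f ≤ T + 13) f g := by
  obtain ⟨e, he, he'⟩ := exists_best h.n₁
  have n := sq_add h.n₁
  have k : ∀ x, zd x f ≤ T + 13 → F ν₂ κ (em x) ≤ -20 := fun x hx =>
    (F_lip h.n₂ h0 h1 (q := em f) (D := T + 13) (by rw [norm_em]; exact_mod_cast hx)).trans h2
  have z := zd_ray (abs_re h.n₁) (abs_im h.n₁) f (unit_le he) T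
  refine ⟨ray f e ν₁.re ν₁.im T, by omega, ?_, k _ (by omega), rch_ray h.e₁ h.n₁ h0 h1 (abs_re h.n₁)
    (abs_im h.n₁) (by linarith) hf he he' fun x k1 k2 =>
      ⟨⟨k1, out_F h.e₂ h.n₂ h0 h1 h.w₂.2 ((k x k2).trans (by norm_num))⟩, k2⟩⟩
  have k1 := norm_prod_le_iff.1 (near_ray (show zd (ray f e ν₁.re ν₁.im T) (ray f e ν₁.re ν₁.im T) ≤ 0
    by simp [zd]))
  have k2 := (abs_le.1 (abs_mul_le k1.1 (abs_re h.n₁))).2
  have k3 := (abs_le.1 (abs_mul_le k1.2 (abs_im h.n₁))).2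
  have k4 := ht_lt h.e₁ h.n₁ h0 h1 h.w₁.1 hf
  have k5 : (zd (ray f e ν₁.re ν₁.im T) 0 : ℝ) ≤ T + 12 + zd f 0 := by
    exact_mod_cast (zd_tri _ f 0).trans (Nat.add_le_add_right z _)
  have k6 := mul_le_mul_of_nonneg_left k5 h0
  have k7 := mul_le_mul_of_nonneg_right h1 (by positivity : (0 : ℝ) ≤ T + 12)
  have k8 := congrArg ((T : ℝ) * ·) n
  have k9 : 0 ≤ κ * zd f 0 := by positivity
  rw [F_em]
  simp only [ht, em, Prod.fst_sub, Prod.snd_sub] at k2 k3 k4 he' ⊢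
  push_cast at k2 k3
  linarith

theorem tip_symm (h : TipS S₁ S₂ ν₁ ν₂ α κ) : TipS S₂ S₁ ν₂ ν₁ α κ :=
  ⟨h.n₂, h.n₁, add_comm ν₁ ν₂ ▸ h.add, norm_sub_rev ν₁ ν₂ ▸ h.sub, h.e₂, h.e₁, h.w₂, h.w₁⟩

/-- Outer points far from the tip are joined to the inner wedge. -/
theorem move (h : TipS S₁ S₂ ν₁ ν₂ α κ) (hα : 0 < α) (h0 : 0 ≤ κ) (h1 : κ ≤ 1 / 8)
    (h2 : κ ≤ α * α / 320) {f : ℤ × ℤ} (f1 : f ∉ S₁) (f2 : f ∉ S₂) (h3 : 3000 ≤ α * α * zd f 0)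
    {s : ℕ} (h4 : 6 * κ * zd f 0 + 54 ≤ s) :
    ∃ g, zd g f ≤ s ∧ F ν₁ κ (em g) ≤ -20 ∧ F ν₂ κ (em g) ≤ -20 ∧
      Rch (fun x => (x ∉ S₁ ∧ x ∉ S₂) ∧ zd x f ≤ s) f g := by
  have r0 : (0 : ℝ) ≤ zd f 0 := Nat.cast_nonneg _
  have k0 := mul_le_mul_of_nonneg_right h2 r0
  have k9 : 0 ≤ κ * zd f 0 := by positivity
  have T1 := Nat.le_ceil (6 * κ * zd f 0 + 40)
  have T2 := Nat.ceil_lt_add_one (by positivity : 0 ≤ 6 * κ * zd f 0 + 40)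
  generalize ⌈6 * κ * zd f 0 + 40⌉₊ = T at T1 T2
  have T3 : T + 13 ≤ s := by exact_mod_cast (by linarith : (T : ℝ) + 13 ≤ s)
  by_cases c2 : ht ν₂ f ≤ -(α * α * zd f 0 / 8)
  · obtain ⟨g, g1, g2, g3, g4⟩ := push h h0 h1 f1 T1 (by rw [F_em]; linarith)
    exact ⟨g, g1.trans T3, g2, g3, rch_mono (fun x hx => ⟨hx.1, hx.2.trans T3⟩) g4⟩
  by_cases c1 : ht ν₁ f ≤ -(α * α * zd f 0 / 8)
  · obtain ⟨g, g1, g2, g3, g4⟩ := push (tip_symm h) h0 h1 f2 T1 (by rw [F_em]; linarith)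
    exact ⟨g, g1.trans T3, g3, g2, rch_mono (fun x hx => ⟨hx.1.symm, hx.2.trans T3⟩) g4⟩
  have u1 := ht_lt h.e₁ h.n₁ h0 h1 h.w₁.1 f1
  have u2 := ht_lt h.e₂ h.n₂ h0 h1 h.w₂.1 f2
  obtain ⟨k1, k2⟩ := B5b.cramer (A := α * α * zd f 0 / 8) h.n₁ h.n₂ hα hα h.add h.sub (w := f)
    (abs_le.2 ⟨by linarith, by linarith⟩) (abs_le.2 ⟨by linarith, by linarith⟩)
  have k3 := (le_div_iff₀ (mul_pos hα hα)).1 (zd_le_real k1 k2)
  linarith

/-- The inner wedge is connected. -/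
theorem wedge (h : TipS S₁ S₂ ν₁ ν₂ α κ) (h0 : 0 ≤ κ) (h1 : κ ≤ 1 / 8) {u w b : ℤ × ℤ} {D : ℕ}
    (hu : zd u b ≤ D ∧ F ν₁ κ (em u) ≤ -11 ∧ F ν₂ κ (em u) ≤ -11)
    (hw : zd w b ≤ D ∧ F ν₁ κ (em w) ≤ -11 ∧ F ν₂ κ (em w) ≤ -11) :
    Rch (fun x => (x ∉ S₁ ∧ x ∉ S₂) ∧ zd x b ≤ D + 2) u w := by
  refine seg fun x θ t0 t1 hx => ⟨⟨out_F h.e₁ h.n₁ h0 h1 h.w₁.2 ?_,
    out_F h.e₂ h.n₂ h0 h1 h.w₂.2 ?_⟩, ?_⟩
  · linarith [F_lip h.n₁ h0 h1 hx, F_cvx h0 t0 t1 hu.2.1 hw.2.1]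
  · linarith [F_lip h.n₂ h0 h1 hx, F_cvx h0 t0 t1 hu.2.2 hw.2.2]
  · have k1 := norm_cvx t0 t1 (em u) (em w) (em b)
    have k2 := norm_sub_le_norm_sub_add_norm_sub (em x) (em u + θ • (em w - em u)) (em b)
    have k3 := mul_le_mul_of_nonneg_left (Nat.cast_le (α := ℝ).2 hu.1) (sub_nonneg.2 t1)
    have k4 := mul_le_mul_of_nonneg_left (Nat.cast_le (α := ℝ).2 hw.1) t0
    rw [norm_em, norm_em] at k1
    rw [norm_em] at k2
    exact_mod_cast (by linarith : (zd x b : ℝ) ≤ D + 2)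

/-- The entry point in the square. -/
theorem enter (h : TipS S₁ S₂ ν₁ ν₂ α κ) (hα : 0 < α) (h0 : 0 ≤ κ) (h1 : κ ≤ 1 / 8)
    (h2 : κ ≤ α / 8) {g c : ℤ × ℤ} {t d : ℕ} (hc : 2 * zd c 0 ≤ t) (ht : 640 ≤ α * t)
    (hg : zd g c ≤ t + d) (g1 : F ν₁ κ (em g) ≤ -20) (g2 : F ν₂ κ (em g) ≤ -20) :
    ∃ x, zd x c ≤ t ∧ zd x g ≤ 5 * d + 6 ∧ F ν₁ κ (em x) ≤ -11 ∧ F ν₂ κ (em x) ≤ -11 := by
  obtain ⟨a, b, ha, hb, m1, m2⟩ := exists_mu h.n₁ h.n₂ hα h.add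
  have t0 : (0 : ℝ) ≤ t := Nat.cast_nonneg t
  have d0 : (0 : ℝ) ≤ d := Nat.cast_nonneg d
  have t1 : (320 : ℝ) ≤ t := by nlinarith [h.le_two]
  have o1 : ‖(-(t / 8 : ℝ)) • (a, b)‖ ≤ t / 8 := by
    rw [norm_smul, norm_neg, Real.norm_of_nonneg (by positivity)]
    exact mul_le_of_le_one_right (by positivity) (norm_prod_le_iff.2 ⟨ha, hb⟩)
  have o2 : ∀ ν : ℂ, α / 2 ≤ a * ν.re + b * ν.im → F ν κ ((-(t / 8 : ℝ)) • (a, b)) ≤ -20 := by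
    intro ν m
    have k1 := mul_le_mul_of_nonneg_left o1 h0
    have k2 := mul_le_mul_of_nonneg_left m t0
    have k3 := mul_le_mul_of_nonneg_right h2 t0
    simp only [F, Prod.smul_fst, Prod.smul_snd, smul_eq_mul]
    linarith
  have o3 := o2 _ m1
  have o4 := o2 _ m2
  generalize (-(t / 8 : ℝ)) • (a, b) = o at o1 o3 o4
  have c1 : 2 * ‖em c‖ ≤ t := by rw [norm_em₀]; exact_mod_cast hc
  have c2 : ‖em g - em c‖ ≤ t + d := by rw [norm_em]; exact_mod_cast hg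
  have c3 : ‖o - em c‖ ≤ 5 / 8 * t := by linarith [norm_sub_le o (em c)]
  obtain ⟨θ, t2, t3, t4⟩ : ∃ θ : ℝ, 0 ≤ θ ∧ θ ≤ 1 ∧ θ * (d + 3 / 8 * t) = d + 1 :=
    ⟨(d + 1) / (d + 3 / 8 * t), by positivity, (div_le_one (by linarith)).2 (by linarith),
      div_mul_cancel₀ _ (by linarith)⟩
  obtain ⟨x, hx⟩ := exists_round (em g + θ • (o - em g))
  refine ⟨x, ?_, ?_, by linarith [F_lip h.n₁ h0 h1 hx, F_cvx h0 t2 t3 g1 o3],
    by linarith [F_lip h.n₂ h0 h1 hx, F_cvx h0 t2 t3 g2 o4]⟩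
  · have k1 := norm_cvx t2 t3 (em g) o (em c)
    have k2 := norm_sub_le_norm_sub_add_norm_sub (em x) (em g + θ • (o - em g)) (em c)
    have k3 := mul_le_mul_of_nonneg_left c2 (sub_nonneg.2 t3)
    have k4 := mul_le_mul_of_nonneg_left c3 t2
    rw [norm_em] at k2
    exact_mod_cast (by linarith : (zd x c : ℝ) ≤ t)
  · have k1 := norm_cvx t2 t3 (em g) o (em g)
    have k2 := norm_sub_le_norm_sub_add_norm_sub (em x) (em g + θ • (o - em g)) (em g)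
    have k3 := norm_sub_le_norm_sub_add_norm_sub o (em c) (em g)
    rw [norm_sub_rev (em c)] at k3
    have k4 := mul_le_mul_of_nonneg_left (k3.trans (add_le_add c3 c2)) t2
    rw [sub_self, norm_zero] at k1
    rw [norm_em] at k2
    exact_mod_cast (by linarith [mul_nonneg t2 t0, mul_nonneg t2 d0] : (zd x g : ℝ) ≤ 5 * d + 6)

end COr

open COr

theorem connOr : ConnOr := by
  refine ⟨30, fun α hα K₀ => ?_⟩
  have hα2 := mul_pos hα hα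
  refine ⟨min (α * α / 320) (1 / (12 * (K₀ + 1))), by positivity,
    ⌈6000 / (α * α)⌉₊ + 108 * (K₀ + 1), fun κ h0 hκ t ht S₁ S₂ ν₁ ν₂ c h hc b s hs hb => ?_⟩
  have a2 := h.le_two
  have h2 := hκ.trans (min_le_left _ _)
  have h3 := (le_div_iff₀ (by positivity)).1 (hκ.trans (min_le_right _ _))
  have h1 : κ ≤ 1 / 8 := by nlinarith
  have s1 : 108 ≤ s := by
    by_contra! k
    nlinarith [Nat.mul_le_mul_left K₀ k.le]
  have t0 : (0 : ℝ) ≤ t := Nat.cast_nonneg t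
  have t1 : 6000 ≤ t * (α * α) := (div_le_iff₀ hα2).1 (Nat.ceil_le.1 (le_trans le_self_add ht))
  have o1 : ∀ {x : ℤ × ℤ} {D : ℕ}, D ≤ 30 * s → (x ∉ S₁ ∧ x ∉ S₂) ∧ zd x b ≤ D →
      x ∉ DugU true S₁ S₂ c t ∧ zd x b ≤ 30 * s := fun hD hx =>
    ⟨fun o => Or.elim o.1 hx.1.1 hx.1.2, hx.2.trans hD⟩
  have o2 : ∀ {u w : ℤ × ℤ}, zd u b ≤ 30 * s → zd u c ≤ t → zd w b ≤ 30 * s → zd w c ≤ t →
      Rch (fun x => x ∉ DugU true S₁ S₂ c t ∧ zd x b ≤ 30 * s) u w := fun k1 k2 k3 k4 =>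
    rch_mono (fun x hx => ⟨fun o => absurd o.2 (not_lt.2 hx.2), hx.1⟩) (rch_rect ⟨k1, k2⟩ ⟨k3, k4⟩)
  have key : ∀ f, zd f b ≤ s → f ∉ DugU true S₁ S₂ c t → zd f c ≤ t ∨
      ∃ g, zd g b ≤ 2 * s ∧ F ν₁ κ (em g) ≤ -20 ∧ F ν₂ κ (em g) ≤ -20 ∧
        Rch (fun x => x ∉ DugU true S₁ S₂ c t ∧ zd x b ≤ 30 * s) f g := by
    intro f f1 f2
    refine or_iff_not_imp_left.2 fun k => ?_
    have k1 := zd_tri f 0 c
    have k2 := zd_tri f b 0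
    rw [zd_comm 0] at k1
    have k3 : (t : ℝ) ≤ 2 * zd f 0 := by exact_mod_cast (by omega : t ≤ 2 * zd f 0)
    have k4 : (zd f 0 : ℝ) ≤ s + K₀ * s := by exact_mod_cast (by omega : zd f 0 ≤ s + K₀ * s)
    have k5 : (108 : ℝ) ≤ s := by exact_mod_cast s1
    obtain ⟨g, g1, g2, g3, g4⟩ := move h hα h0 h1 h2 (fun o => f2 ⟨Or.inl o, not_le.1 k⟩)
      (fun o => f2 ⟨Or.inr o, not_le.1 k⟩) (by nlinarith) (s := s) (by
        nlinarith [mul_le_mul_of_nonneg_left k4 h0,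
          mul_le_mul_of_nonneg_right h3 (by linarith : (0 : ℝ) ≤ s)])
    refine ⟨g, by have := zd_tri g f b; omega, g2, g3,
      rch_mono (fun x hx => o1 (D := 2 * s) (by omega) ⟨hx.1, ?_⟩) g4⟩
    have := zd_tri x f b
    have := hx.2
    omega
  have mix : ∀ f g, zd f b ≤ s → zd f c ≤ t → zd g b ≤ 2 * s → F ν₁ κ (em g) ≤ -20 →
      F ν₂ κ (em g) ≤ -20 → Rch (fun x => x ∉ DugU true S₁ S₂ c t ∧ zd x b ≤ 30 * s) g f := by
    intro f g f1 f2 g1 g2 g3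
    have k1 := zd_tri g b c
    have k2 := zd_tri b f c
    rw [zd_comm b f] at k2
    obtain ⟨x, x1, x2, x3⟩ := enter h hα h0 h1 (by nlinarith) hc (by nlinarith) (g := g)
      (d := 3 * s) (by omega) g2 g3
    have k3 := zd_tri x g b
    exact (rch_mono (fun _ => o1 (by omega)) (wedge h h0 h1 (D := 18 * s)
      ⟨by omega, by linarith, by linarith⟩ ⟨by omega, x3⟩)).trans (o2 (by omega) x1 (by omega) f2)
  intro f f' f1 f2 f3 f4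
  rcases key f f1 f3 with k | ⟨g, g1, g2, g3, g4⟩ <;>
    rcases key f' f2 f4 with k' | ⟨g', g5, g6, g7, g8⟩
  · exact o2 (by omega) k (by omega) k'
  · exact (g8.trans (mix f g' f1 k g5 g6 g7)).symm
  · exact g4.trans (mix f' g f2 k' g1 g2 g3)
  · exact g4.trans ((rch_mono (fun _ => o1 (by omega)) (wedge h h0 h1
      ⟨g1, by linarith, by linarith⟩ ⟨g5, by linarith, by linarith⟩)).trans g8.symm)

end Vale.Agent.P144Z
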